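import Vale.Agent.P011Z.Cl.O2c.Blk

/-!
The congruence at one real place, and its invariance under the Galois group.
-/

open Matrix Module

noncomputable section

namespace Vale.Agent.P011Z.Cl.O2cx

variable {γ : Gq} {ι : Om →+* ℂ}

section gen

variable {n : Type} [Fintype n] [DecidableEq n] [Nonempty n] {G K : Subgroup Gq}
  {P : Gq → Matrix n n Om} {m : Matrix n n Om}

theorem inv_K (h : UD G K P) {τ : Gq} (hγ : γ ∈ G) (hK : γ ∉ K) (hτ : τ ∈ K)
    (hm : P τ * m.map τ = m * P τ) (hc : Cg γ (P γ) (P γ * m.map γ)) :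
    Cg (τ⁻¹ * γ * τ) (P (τ⁻¹ * γ * τ)) (P (τ⁻¹ * γ * τ) * m.map (τ⁻¹ * γ * τ : Gq)) := by
  have hτG := h.le hτ
  have h1 : τ⁻¹ * γ * τ ∈ G := mul_mem (mul_mem (inv_mem hτG) hγ) hτG
  have h2 : τ⁻¹ * γ * τ ∉ K := fun h3 => hK (by
    have h4 := mul_mem (mul_mem hτ h3) (inv_mem hτ)
    rwa [← mul_assoc, mul_inv_cancel_left, mul_inv_cancel_right] at h4)
  obtain ⟨c, h3⟩ := h.cod τ hτG _ h1 h2
  obtain ⟨d, h4⟩ := h.coc γ hγ τ hτ
  have hd : d ≠ 0 := Lanx.ne_of_smul h4 (by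
    rw [det_mul]
    exact mul_ne_zero (h.ne γ hγ) (Lanx.det_map_ne γ (h.ne τ hτG)))
  have h5 : τ * (τ⁻¹ * γ * τ) = γ * τ := by rw [← mul_assoc, mul_inv_cancel_left]
  have h6 : (P (τ⁻¹ * γ * τ)).map τ = (c * d⁻¹) • ((P τ)ᵀ * P γ * (P τ).map γ) := by
    rw [h3, h5, mul_assoc (P τ)ᵀ, h4, Matrix.mul_smul, smul_smul, inv_mul_cancel_right₀ hd]
  have h7 : (m.map (τ⁻¹ * γ * τ : Gq)).map τ = (m.map τ).map γ := by
    ext i j
    change (τ * (τ⁻¹ * γ * τ)) (m i j) = (γ * τ) (m i j)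
    rw [h5]
  have h8 : (P (τ⁻¹ * γ * τ) * m.map (τ⁻¹ * γ * τ : Gq)).map τ =
      (c * d⁻¹) • ((P τ)ᵀ * (P γ * m.map γ) * (P τ).map γ) := by
    rw [Matrix.map_mul, h6, h7, Matrix.smul_mul, mul_assoc _ _ ((m.map τ).map γ),
      ← Matrix.map_mul, hm, Matrix.map_mul]
    simp only [mul_assoc]
  have h9 := (((cg_self (h.ne τ hτG) (P γ)).symm.trans
    (hc.trans (cg_self (h.ne τ hτG) _))).smul (c * d⁻¹)).map τ⁻¹
  have h10 : ∀ X : Matrix n n Om, (X.map τ).map (τ⁻¹ : Gq) = X := fun X => by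
    ext i j
    exact τ.symm_apply_apply _
  rwa [← h6, ← h8, h10, h10, inv_inv] at h9

theorem inv_G (h : UD G K P) {σ : Gq} (hγ : γ ∈ G) (hK : γ ∉ K) (hσ : σ ∈ G)
    (hm : ∀ τ ∈ K, P τ * m.map τ = m * P τ) (hc : Cg γ (P γ) (P γ * m.map γ)) :
    Cg (σ⁻¹ * γ * σ) (P (σ⁻¹ * γ * σ)) (P (σ⁻¹ * γ * σ) * m.map (σ⁻¹ * γ * σ : Gq)) := by
  by_cases h1 : σ ∈ K
  · exact inv_K h hγ hK h1 (hm σ h1) hc
  · have h2 := Lanx.inv_mul_mem_K h hγ hK hσ h1
    have h3 := inv_K h hγ hK h2 (hm _ h2) hc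
    have h4 : (γ⁻¹ * σ)⁻¹ * γ * (γ⁻¹ * σ) = σ⁻¹ * γ * σ := by group
    rwa [h4] at h3

theorem exists_e (hj : Cj ι γ) {W : Matrix n n Om} (h0 : W.det ≠ 0) {c : Om}
    (hc : W.map γ = c • Wᵀ) : ∃ e : Om, e ≠ 0 ∧ (e • W).map γ = (e • W)ᵀ := by
  have h1 : γ c * c = 1 := by
    have h2 : W = (γ c * c) • W := by
      ext i j
      have h3 : γ (W i j) = c * W j i := congrFun (congrFun hc i) j
      have h4 : γ (W j i) = c * W i j := congrFun (congrFun hc j) i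
      have h5 := congrArg γ h3
      rw [gam_gam hj, map_mul, h4, ← mul_assoc] at h5
      exact h5
    by_contra h3
    have h4 : (1 - γ c * c) • W = 0 := by rw [sub_smul, one_smul, ← h2, sub_self]
    rcases smul_eq_zero.1 h4 with h5 | h5
    · exact h3 (sub_eq_zero.1 h5).symm
    · exact h0 (by rw [h5, det_zero])
  suffices h2 : ∃ e : Om, e ≠ 0 ∧ γ e * c = e by
    obtain ⟨e, h3, h4⟩ := h2
    exact ⟨e, h3, by rw [Lanx.map_smul_gq, hc, smul_smul, h4, transpose_smul]⟩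
  rcases eq_or_ne (1 + c) 0 with h2 | h2
  · obtain ⟨δ, h3, h4⟩ := exists_skew hj
    exact ⟨δ, h3, by rw [h4, eq_neg_of_add_eq_zero_right h2, neg_mul_neg, mul_one]⟩
  · exact ⟨1 + c, h2, by rw [map_add, map_one, add_mul, one_mul, h1, add_comm]⟩

omit [Nonempty n] in
theorem herm_cg (hj : Cj ι γ) {X X' : Matrix n n Om} (h : Cg γ X X') (hX : X.map γ = Xᵀ) :
    X'.map γ = X'ᵀ := by
  obtain ⟨Y, -, rfl⟩ := h
  have h1 : (Y.map γ).map γ = Y := by
    ext i j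
    exact gam_gam hj _
  rw [Matrix.map_mul, Matrix.map_mul, hX, h1, transpose_mul, transpose_mul, transpose_transpose,
    transpose_map, mul_assoc]

end gen

theorem mul_j2 (B : Matrix (Fin 2) (Fin 2) Om) :
    B * j2 * Bᵀ = B.det • j2 ∧ (B * j2) 1 1 = B 1 0 ∧ (B * j2).det = B.det := by
  refine ⟨?_, ?_, ?_⟩
  · ext a b
    fin_cases a <;> fin_cases b <;>
      simp [Matrix.mul_apply, Fin.sum_univ_two, j2, det_fin_two] <;> ring
  · simp [Matrix.mul_apply, Fin.sum_univ_two, j2]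
  · simp [j2]

theorem sgn_iff {p : Prop} {x y : ℝ} (h0 : x * y ≠ 0) (h : (p ↔ 0 < y) ↔ x < 0) :
    p ↔ x * y < 0 := by
  rcases (left_ne_zero_of_mul h0).lt_or_gt with h1 | h1
  · exact (h.2 h1).trans ⟨fun h2 => mul_neg_of_neg_of_pos h1 h2,
      fun h2 => pos_of_mul_neg_right h2 h1.le⟩
  · have h2 : ¬(p ↔ 0 < y) := fun h3 => lt_asymm h1 (h.1 h3)
    rcases (right_ne_zero_of_mul h0).lt_or_gt with h3 | h3
    · have h4 : p := by
        by_contra h5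
        exact h2 (iff_of_false h5 (lt_asymm h3))
      exact iff_of_true h4 (mul_neg_of_pos_of_neg h1 h3)
    · exact iff_of_false (fun h4 => h2 (iff_of_true h4 h3)) (lt_asymm (mul_pos h1 h3))

/-- The signs at one real place. -/
theorem loc (hj : Cj ι γ) {W Q : Matrix I6 I6 Om} {B : Matrix (Fin 2) (Fin 2) Om}
    (hW : W.det ≠ 0) (hQ : Q.det ≠ 0) {c : Om} (hc : W.map γ = c • Wᵀ)
    (hB : 0 < (ι (B.det / B 1 0 ^ 2)).re) {a : Fin 3 → Om} (ha : ∀ i, a i ≠ 0) :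
    ∃ p : Fin 3 → Prop, ∀ (l : Fin 3 → Om) (m : Matrix I6 I6 Om), (∀ i, l i ≠ 0) →
      (∀ i, γ (l i) = l i) → (∀ i, p i ↔ (ι (l i)).re < 0) →
      Qᵀ * W * (m * Q).map γ * bd (fun _ => Bᵀ) = bd (fun i => (l i * a i) • j2) →
      W * m.map γ = mᵀ * W → (∃ w, w ≠ 0 ∧ m.det = w * γ w) → Cg γ W (W * m.map γ) := by
  obtain ⟨e, he, hH⟩ := exists_e hj hW hc
  have hB0 : B.det / B 1 0 ^ 2 ≠ 0 := fun h => by
    rw [h, map_zero, Complex.zero_re] at hB
    exact lt_irrefl _ hB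
  obtain ⟨hB1, hB2⟩ := div_ne_zero_iff.1 hB0
  have hB3 : B 1 0 ≠ 0 := fun h => hB2 (by rw [h, zero_pow two_ne_zero])
  obtain ⟨j1, j3, j4⟩ := mul_j2 B
  obtain ⟨p, hp⟩ := herm_pattern hj hH (by
    rw [det_smul]
    exact mul_ne_zero (pow_ne_zero _ he) hW)
  refine ⟨fun i => p i ↔ 0 < (ι (e * a i * B 1 0 / B.det)).re,
    fun l m hl0 hl hs hg hm ⟨w, hw0, hw⟩ => Cg.of_smul he ?_⟩
  have h1 : Qᵀ * (e • (W * m.map γ)) * Q.map γ =
      bd fun i => (e * (l i * a i) / B.det) • (B * j2) := by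
    have h2 : IsUnit (bd fun _ => Bᵀ).det := by
      rw [bd_det]
      exact Ne.isUnit (Finset.prod_ne_zero_iff.2 fun i _ => by rwa [det_transpose])
    refine ((isUnit_iff_isUnit_det _).2 h2).mul_right_cancel ?_
    rw [Matrix.mul_smul, Matrix.smul_mul, Matrix.smul_mul, ← mul_assoc, mul_assoc _ (m.map γ),
      ← Matrix.map_mul, hg, bd_mul, bd_smul]
    refine congrArg bd (funext fun i => ?_)
    rw [Matrix.smul_mul, j1, smul_smul, smul_smul, div_mul_cancel₀ _ hB1]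
  have h2 : Cg γ (e • (W * m.map γ)) _ := ⟨Q, hQ, h1⟩
  have h3 : (e • (W * m.map γ)).map γ = (e • (W * m.map γ))ᵀ := by
    have h4 : (m.map γ).map γ = m := by
      ext i j
      exact gam_gam hj _
    conv_rhs => rw [hm, ← Matrix.mul_smul, transpose_mul, transpose_transpose]
    rw [← Matrix.smul_mul, Matrix.map_mul, hH, h4]
  have h4 := herm_cg hj h2 h3
  rw [bd_map, bd_tr] at h4
  have h5 := bd_inj h4
  have h6 : ∀ i, ((e * (l i * a i) / B.det) • (B * j2)) 1 1 =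
      l i * (e * a i * B 1 0 / B.det) := fun i => by
    rw [Matrix.smul_apply, j3, smul_eq_mul]
    ring
  have h7 : ∀ i, l i * (e * a i * B 1 0 / B.det) ≠ 0 := fun i =>
    mul_ne_zero (hl0 i) (div_ne_zero (mul_ne_zero (mul_ne_zero he (ha i)) hB3) hB1)
  have h8 : ∀ i, γ (l i * (e * a i * B 1 0 / B.det)) = l i * (e * a i * B 1 0 / B.det) :=
    fun i => by
      rw [← h6]
      exact congrFun (congrFun (h5 i) 1) 1
  have h9 : ∀ i, 0 < (ι ((e * (l i * a i) / B.det) • (B * j2)).det).re := fun i => by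
    have h10 := (pos_iff hj (h7 i) _).2 hB
    rw [h8] at h10
    have h11 : ((e * (l i * a i) / B.det) • (B * j2)).det = l i * (e * a i * B 1 0 / B.det) *
        (l i * (e * a i * B 1 0 / B.det)) * (B.det / B 1 0 ^ 2) := by
      rw [det_smul, j4, Fintype.card_fin]
      field_simp
    rwa [h11]
  refine (hp _ ?_ h5 h9 fun i => ?_).trans h2.symm
  · have h10 := (h2.det_pos hj).1 (by
      rw [bd_det, re_prod hj fun i => herm_det (h5 i)]
      exact Finset.prod_pos fun i _ => h9 i)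
    rw [← Matrix.smul_mul, det_mul, det_map, hw, map_mul γ, gam_gam hj, mul_comm (γ w),
      mul_comm] at h10
    exact (pos_iff hj hw0 _).1 h10
  · have h10 := re_ne hj (h7 i) (h8 i)
    rw [h6, re_mul hj (hl i)]
    rw [re_mul hj (hl i)] at h10
    exact sgn_iff h10 (hs i)

end Vale.Agent.P011Z.Cl.O2cx

end
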