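import Vale.Agent.P011Z.Cl.Gal1

/-!
Equivariant triples of numbers with prescribed signs at the real places.
-/

noncomputable section

namespace Vale.Agent.P011Z.Cl.O2cx

variable {G : Subgroup Gq} {χ : Gq → Fin 3}

theorem chi_one (h : Chi G χ) : χ 1 = 0 := by
  have := h.mul 1 (one_mem G) 1 (one_mem G)
  rw [mul_one] at this
  exact left_eq_add.1 this

theorem chi_inv (h : Chi G χ) {σ : Gq} (hσ : σ ∈ G) : χ σ⁻¹ = -χ σ := by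
  have := h.mul _ (inv_mem hσ) σ hσ
  rw [inv_mul_cancel, chi_one h] at this
  exact eq_neg_of_add_eq_zero_left this.symm

theorem chi_sq (h : Chi G χ) {γ : Gq} (hγ : γ ∈ G) (h2 : γ * γ = 1) : χ γ = 0 := by
  have := h.mul γ hγ γ hγ
  rw [h2, chi_one h] at this
  revert this
  generalize χ γ = a
  revert a
  decide

theorem exists_sec (h : Chi G χ) : ∃ (ρ : Fin 3 → Gq) (b : Fin 3 → Fin 3),
    (∀ i, ρ i ∈ G ∧ b i + χ (ρ i) = i) ∧ ∀ σ ∈ G, ∀ i, b (i + χ σ) = b i := by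
  by_cases h0 : ∀ σ ∈ G, χ σ = 0
  · exact ⟨fun _ => 1, id, fun i => ⟨one_mem G, by rw [chi_one h, add_zero, id]⟩,
      fun σ hσ i => by rw [h0 σ hσ, add_zero]⟩
  · push Not at h0
    obtain ⟨σ, hσ, h1⟩ := h0
    have h2 : ∀ i, ∃ ρ ∈ G, χ ρ = i := by
      have h3 : ∀ a i : Fin 3, a ≠ 0 → 0 = i ∨ a = i ∨ a + a = i := by decide
      intro i
      rcases h3 _ i h1 with k | k | k
      · exact ⟨1, one_mem G, (chi_one h).trans k⟩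
      · exact ⟨σ, hσ, k⟩
      · exact ⟨σ * σ, mul_mem hσ hσ, (h.mul σ hσ σ hσ).trans k⟩
    choose ρ h3 h4 using h2
    exact ⟨ρ, fun _ => 0, fun i => ⟨h3 i, by rw [zero_add, h4]⟩, fun _ _ _ => rfl⟩

theorem comp_mul (ι : Om →+* ℂ) (σ τ : Gq) :
    (ι.comp (σ : Om →+* Om)).comp (τ : Om →+* Om) = ι.comp ((σ * τ : Gq) : Om →+* Om) := rfl

theorem comp_inj (ι : Om →+* ℂ) {σ τ : Gq}
    (h : ι.comp (σ : Om →+* Om) = ι.comp (τ : Om →+* Om)) : σ = τ :=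
  AlgEquiv.ext fun x => ι.injective (RingHom.congr_fun h x)

theorem exists_rep (G : Subgroup Gq) : ∃ r : (Om →+* ℂ) → (Om →+* ℂ),
    (∀ ι, ∃ σ ∈ G, ι = (r ι).comp (σ : Om →+* Om)) ∧
      ∀ ι, ∀ σ ∈ G, r (ι.comp (σ : Om →+* Om)) = r ι := by
  let S : Setoid (Om →+* ℂ) :=
    { r := fun ι ι' => ∃ σ ∈ G, ι' = ι.comp (σ : Om →+* Om)
      iseqv :=
        { refl := fun ι => ⟨1, one_mem G, rfl⟩
          symm := by
            rintro ι _ ⟨σ, hσ, rfl⟩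
            exact ⟨σ⁻¹, inv_mem hσ, by rw [comp_mul, mul_inv_cancel]; rfl⟩
          trans := by
            rintro ι _ _ ⟨σ, hσ, rfl⟩ ⟨τ, hτ, rfl⟩
            exact ⟨σ * τ, mul_mem hσ hτ, rfl⟩ } }
  refine ⟨fun ι => (Quotient.mk S ι).out, fun ι => Quotient.mk_out (s := S) ι, fun ι σ hσ => ?_⟩
  have : Quotient.mk S ι = Quotient.mk S (ι.comp (σ : Om →+* Om)) := Quotient.sound ⟨σ, hσ, rfl⟩
  simp only [this]

theorem exists_l (hG : Opn G) (h : Chi G χ) (ε : (Om →+* ℂ) → Fin 3 → Prop) :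
    ∃ l : Fin 3 → Om, (∀ i, l i ≠ 0) ∧ (∀ σ ∈ G, ∀ i, σ (l i) = l (i + χ σ)) ∧
      ∀ ι : Om →+* ℂ, ∃ (ι₀ : Om →+* ℂ), ∃ σ ∈ G, ι = ι₀.comp (σ : Om →+* Om) ∧
        ∀ γ, Cj ι₀ γ → γ ∈ G → ∀ i, (ε ι₀ i ↔ (ι₀ (l i)).re < 0) := by
  obtain ⟨N, hN, hm⟩ := h.ker hG
  obtain ⟨ρ, b, h1, h2⟩ := exists_sec h
  obtain ⟨r, r1, r2⟩ := exists_rep G
  choose x x0 xf xs using fun i : Fin 3 => exists_sign hN
    {ι | ∃ σ ∈ G, ι = (r ι).comp (σ : Om →+* Om) ∧ ε (r ι) (i + χ σ)} (by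
      rintro ι ⟨σ, hσ, k1, k2⟩ τ hτ
      obtain ⟨k3, k4⟩ := (hm τ).1 hτ
      refine ⟨σ * τ, mul_mem hσ k3, ?_, ?_⟩
      · rw [r2 ι τ k3, ← comp_mul, ← k1]
      · rwa [r2 ι τ k3, h.mul σ hσ τ k3, k4, add_zero])
  refine ⟨fun i => ρ i (x (b i)), fun i => (map_ne_zero _).2 (x0 _), fun σ hσ i => ?_,
    fun ι => ?_⟩
  · have k1 : (ρ (i + χ σ))⁻¹ * (σ * ρ i) ∈ N := by
      refine (hm _).2 ⟨mul_mem (inv_mem (h1 _).1) (mul_mem hσ (h1 _).1), ?_⟩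
      rw [h.mul _ (inv_mem (h1 _).1) _ (mul_mem hσ (h1 _).1), h.mul σ hσ _ (h1 _).1,
        chi_inv h (h1 _).1, eq_sub_of_add_eq' (h1 i).2, eq_sub_of_add_eq' (h1 (i + χ σ)).2,
        h2 σ hσ]
      abel
    have k2 := xf (b i) _ k1
    beta_reduce
    rw [h2 σ hσ]
    conv_rhs => rw [← k2]
    rw [← AlgEquiv.mul_apply, ← AlgEquiv.mul_apply, mul_inv_cancel_left]
  · obtain ⟨σ, hσ, k1⟩ := r1 ι
    refine ⟨r ι, σ, hσ, k1, fun γ hγ hγG i => ?_⟩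
    have k2 : r (r ι) = r ι := by
      conv_rhs => rw [k1, r2 _ σ hσ]
    have k3 := hγ.comp (ρ i)
    have k4 : (ρ i)⁻¹ * γ * ρ i ∈ G := mul_mem (mul_mem (inv_mem (h1 i).1) hγG) (h1 i).1
    refine Iff.trans ?_ (xs (b i) _ _ k3 ((hm _).2 ⟨k4, chi_sq h k4 k3.sq⟩))
    rw [Set.mem_ofPred_eq, r2 _ _ (h1 i).1, k2]
    constructor
    · intro k5
      exact ⟨ρ i, (h1 i).1, rfl, by rwa [(h1 i).2]⟩
    · rintro ⟨τ, -, k5, k6⟩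
      rwa [← comp_inj _ k5, (h1 i).2] at k6

end Vale.Agent.P011Z.Cl.O2cx

end
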