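import Vale.Agent.P011Z.Cl.O2c.Herm

/-!
Hermitian matrices of degree six and block diagonal matrices with definite blocks.
-/

open Matrix Module

noncomputable section

namespace Vale.Agent.P011Z.Cl.O2cx

variable {γ : Gq} {ι : Om →+* ℂ} {C E : Fin 3 → Matrix (Fin 2) (Fin 2) Om}

/-- Block diagonal matrices. -/
def bd (C : Fin 3 → Matrix (Fin 2) (Fin 2) Om) : Matrix I6 I6 Om :=
  fun q r => if q.1 = r.1 then C q.1 q.2 r.2 else 0

theorem bd_eq (C : Fin 3 → Matrix (Fin 2) (Fin 2) Om) :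
    bd C = (blockDiagonal C).submatrix (Equiv.prodComm _ _) (Equiv.prodComm _ _) := rfl

theorem bd_mul (C E : Fin 3 → Matrix (Fin 2) (Fin 2) Om) :
    bd C * bd E = bd fun i => C i * E i := by
  rw [bd_eq, bd_eq, bd_eq, submatrix_mul_equiv, ← blockDiagonal_mul]

theorem bd_tr (C : Fin 3 → Matrix (Fin 2) (Fin 2) Om) : (bd C)ᵀ = bd fun i => (C i)ᵀ := by
  rw [bd_eq, bd_eq, transpose_submatrix, blockDiagonal_transpose]

theorem bd_map (C : Fin 3 → Matrix (Fin 2) (Fin 2) Om) (σ : Gq) :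
    (bd C).map σ = bd fun i => (C i).map σ := by
  rw [bd_eq, bd_eq, ← submatrix_map, blockDiagonal_map _ _ (map_zero σ)]

theorem bd_det (C : Fin 3 → Matrix (Fin 2) (Fin 2) Om) : (bd C).det = ∏ i, (C i).det := by
  rw [bd_eq, det_submatrix_equiv_self, det_blockDiagonal]

theorem bd_smul (c : Om) (C : Fin 3 → Matrix (Fin 2) (Fin 2) Om) :
    c • bd C = bd fun i => c • C i := by
  ext q r
  simp only [bd, Matrix.smul_apply, smul_eq_mul, mul_ite, mul_zero]

theorem bd_one : bd (fun _ => 1) = 1 := by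
  rw [bd_eq]
  exact (congrArg (fun X => submatrix X _ _) blockDiagonal_one).trans (submatrix_one_equiv _)

theorem bd_diag (c : Fin 3 → Fin 2 → Om) :
    bd (fun i => diagonal (c i)) = diagonal fun q => c q.1 q.2 := by
  rw [bd_eq, blockDiagonal_diagonal, submatrix_diagonal_equiv]
  rfl

theorem bd_inj (h : bd C = bd E) (i : Fin 3) : C i = E i := by
  ext a b
  have h1 := congrFun (congrFun h (i, a)) (i, b)
  simpa only [bd, if_true] using h1

theorem cg_bd (h : ∀ i, Cg γ (C i) (E i)) : Cg γ (bd C) (bd E) := by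
  choose Y h1 h2 using h
  refine ⟨bd Y, ?_, ?_⟩
  · rw [bd_det]
    exact Finset.prod_ne_zero_iff.2 fun i _ => h1 i
  · rw [bd_tr, bd_map, bd_mul, bd_mul]
    exact congrArg bd (funext h2)

theorem two_ne (hj : Cj ι γ) {X : Matrix (Fin 2) (Fin 2) Om} (hX : X.map γ = Xᵀ)
    (h0 : 0 < (ι X.det).re) : X 1 1 ≠ 0 := by
  intro h1
  have h2 : γ (X 0 1) = X 1 0 := congrFun (congrFun hX 0) 1
  rw [det_fin_two, h1, mul_zero, zero_sub, ← h2, map_neg, Complex.neg_re] at h0
  rcases eq_or_ne (X 0 1) 0 with h3 | h3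
  · rw [h3, zero_mul, map_zero, Complex.zero_re, neg_zero] at h0
    exact lt_irrefl _ h0
  · linarith [hj.norm_pos h3]

theorem cg_two {X : Matrix (Fin 2) (Fin 2) Om} (hX : X.map γ = Xᵀ) (h1 : X 1 1 ≠ 0) :
    Cg γ X (diagonal ![X.det / X 1 1, X 1 1]) := by
  have h2 : γ (X 0 1) = X 1 0 := congrFun (congrFun hX 0) 1
  have h3 : γ (X 1 1) = X 1 1 := congrFun (congrFun hX 1) 1
  refine ⟨!![1, 0; -(X 0 1 / X 1 1), 1], by simp, ?_⟩
  ext a b
  fin_cases a <;> fin_cases b <;>
    simp [Matrix.mul_apply, Fin.sum_univ_two, h2, h3, det_fin_two] <;> field_simp <;> ring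

theorem herm_det {n : Type} [Fintype n] [DecidableEq n] {X : Matrix n n Om}
    (hX : X.map γ = Xᵀ) : γ X.det = X.det := by
  rw [← det_map, hX, det_transpose]

theorem card_pat {k : ℕ} (hk : k ≤ 3) : Nat.card {q : I6 // q.1.val < k} = 2 * k := by
  rw [Nat.card_eq_fintype_card, Fintype.card_subtype]
  interval_cases k <;> rfl

/-- A hermitian matrix of positive determinant is congruent to every block diagonal matrix with
definite blocks of suitable signs. -/
theorem herm_pattern (hj : Cj ι γ) {H : Matrix I6 I6 Om} (hH : H.map γ = Hᵀ) (h0 : H.det ≠ 0) :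
    ∃ p : Fin 3 → Prop, ∀ C : Fin 3 → Matrix (Fin 2) (Fin 2) Om, 0 < (ι H.det).re →
      (∀ i, (C i).map γ = (C i)ᵀ) → (∀ i, 0 < (ι (C i).det).re) →
      (∀ i, p i ↔ (ι (C i 1 1)).re < 0) → Cg γ H (bd C) := by
  obtain ⟨c, hc0, hc, h1⟩ := diag1 hj hH h0
  refine ⟨fun i => i.val < Nat.card {q // (ι (c q)).re < 0} / 2, fun C h2 h3 h4 h5 => ?_⟩
  have h6 := fun i => two_ne hj (h3 i) (h4 i)
  have h7 : ∀ i, γ (C i 1 1) = C i 1 1 := fun i => congrFun (congrFun (h3 i) 1) 1
  have h8 : ∀ i, (C i).det ≠ 0 := fun i h => by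
    have h9 := h4 i
    rw [h, map_zero, Complex.zero_re] at h9
    exact lt_irrefl _ h9
  have h9 := cg_bd fun i => cg_two (h3 i) (h6 i)
  rw [bd_diag] at h9
  refine h1.trans ((diag2 hj hc0 hc ?_ ?_ ?_).trans h9.symm)
  · rintro ⟨i, a⟩
    fin_cases a
    · exact div_ne_zero (h8 i) (h6 i)
    · exact h6 i
  · rintro ⟨i, a⟩
    fin_cases a
    · change γ (_ / _) = _ / _
      rw [map_div₀, h7, herm_det (h3 i)]
    · exact h7 i
  · have h10 : Even (Nat.card {q // (ι (c q)).re < 0}) := by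
      refine even_neg (r := fun q => (ι (c q)).re) ?_
      rw [← re_prod hj hc, ← det_diagonal]
      exact (h1.det_pos hj).2 h2
    have h11 : Nat.card {q // (ι (c q)).re < 0} ≤ 6 := by
      refine (Finite.card_subtype_le _).trans ?_
      rw [Nat.card_eq_fintype_card]
      rfl
    rw [← Nat.two_mul_div_two_of_even h10, ← card_pat (by omega)]
    refine Nat.card_congr (Equiv.subtypeEquivRight ?_)
    rintro ⟨i, a⟩
    refine Iff.trans ?_ (h5 i).symm
    fin_cases a
    · have h12 := re_mul hj (h7 i) ((C i).det / C i 1 1)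
      rw [mul_div_cancel₀ _ (h6 i)] at h12
      have h13 := h4 i
      rw [h12] at h13
      exact ⟨fun h => neg_of_mul_pos_left h13 h.le, fun h => neg_of_mul_pos_right h13 h.le⟩
    · exact Iff.rfl

end Vale.Agent.P011Z.Cl.O2cx

end
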