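import Vale.Agent.P011Z.Cl.Lan.Form
import Vale.Agent.P011Z.Cl.Lan.Fix
import Vale.Agent.P011Z.Cl.Gal1

/-!
Hermitian matrices over the algebraic numbers with a complex conjugation: congruence classes.
-/

open Matrix Module

noncomputable section

namespace Vale.Agent.P011Z.Cl.O2cx

open Vale.Agent.P011.T2 (HF)

section form

variable {D : Type} [DivisionRing D] [StarRing D] {κ : Type} [Fintype κ] [DecidableEq κ]

/-- the form of a hermitian matrix -/
def mf (H : Matrix κ κ D) (hH : Hᴴ = H) : HF D (κ → D) where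
  h x y := ∑ b, (∑ a, x a * H a b) * star (y b)
  add_left x y z := by simp only [Pi.add_apply, add_mul, Finset.sum_add_distrib]
  smul_left a x y := by
    simp only [Pi.smul_apply, smul_eq_mul, mul_assoc, Finset.mul_sum, Finset.sum_mul]
  star_h x y := by
    simp only [star_sum, star_mul, star_star, Finset.sum_mul]
    rw [Finset.sum_comm]
    refine Finset.sum_congr rfl fun b _ => Finset.sum_congr rfl fun a _ => ?_
    rw [← conjTranspose_apply, hH, mul_assoc]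

theorem mf_orth {H : Matrix κ κ D} {hH : Hᴴ = H} {r : ℕ} (ε : κ ≃ Fin r) {v : Fin r → κ → D}
    {c : Fin r → D} (h : Lanx.Orth (mf H hH) v c) :
    of (v ∘ ε) * H * (of (v ∘ ε))ᴴ = diagonal (c ∘ ε) := by
  ext i j
  rw [← submatrix_diagonal_equiv]
  exact h (ε i) (ε j)

theorem mf_nondeg {H : Matrix κ κ D} (hH : Hᴴ = H) (hu : IsUnit H) : (mf H hH).Nondeg := by
  intro x hx
  obtain ⟨⟨H, P, hHP, hPH⟩, rfl⟩ := hu
  have h1 : x ᵥ* H = 0 := by
    funext b
    have h2 : ∑ k, (∑ a, x a * H a k) * star ((Pi.single b 1 : κ → D) k) = 0 := hx _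
    rw [Finset.sum_eq_single b, Pi.single_eq_same, star_one, mul_one] at h2
    · exact h2
    · intro k _ hk
      rw [Pi.single_eq_of_ne hk, star_zero, mul_zero]
    · exact fun h => absurd (Finset.mem_univ b) h
  rw [← vecMul_one x, ← hHP, ← vecMul_vecMul, h1, zero_vecMul]

theorem exists_diag (hS : Lanx.Skew D) {H : Matrix κ κ D} (hH : Hᴴ = H) (hu : IsUnit H) :
    ∃ (V : Matrix κ κ D) (c : κ → D), V * H * Vᴴ = diagonal c ∧ (∀ i, c i ≠ 0) ∧
      ∀ i, star (c i) = c i := by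
  obtain ⟨v, c, h1, h2⟩ := Lanx.exists_orth hS (Fintype.card κ) (κ → D) (mf H hH)
    (mf_nondeg hH hu) (Module.finrank_fintype_fun_eq_card D)
  exact ⟨_, _, mf_orth (Fintype.equivFin κ) h1, fun i => h2 _, fun i => h1.star _ _⟩

end form

variable {n : Type} [Fintype n] [DecidableEq n] {γ : Gq} {ι : Om →+* ℂ}
  {X X' X'' : Matrix n n Om}

/-- Congruence of matrices. -/
def Cg (γ : Gq) (X X' : Matrix n n Om) : Prop :=
  ∃ Y : Matrix n n Om, Y.det ≠ 0 ∧ Yᵀ * X * Y.map γ = X'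

theorem det_map (σ : Gq) (Y : Matrix n n Om) : (Y.map σ).det = σ Y.det :=
  (AlgEquiv.map_det σ Y).symm

omit [Fintype n] in
theorem map_one' (σ : Gq) : (1 : Matrix n n Om).map σ = 1 :=
  Matrix.map_one _ (map_zero σ) (map_one σ)

theorem cg_of {Y : Matrix n n Om} (h : Yᵀ * X * Y.map γ = X') (h0 : X'.det ≠ 0) : Cg γ X X' := by
  refine ⟨Y, fun h1 => h0 ?_, h⟩
  rw [← h, det_mul, det_mul, det_transpose, h1, zero_mul, zero_mul]

theorem Cg.trans (h : Cg γ X X') (h' : Cg γ X' X'') : Cg γ X X'' := by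
  obtain ⟨Y, h1, rfl⟩ := h
  obtain ⟨Z, h2, rfl⟩ := h'
  refine ⟨Y * Z, by rw [det_mul]; exact mul_ne_zero h1 h2, ?_⟩
  rw [transpose_mul, Matrix.map_mul]
  simp only [mul_assoc]

theorem Cg.symm (h : Cg γ X X') : Cg γ X' X := by
  obtain ⟨Y, h1, rfl⟩ := h
  have h2 : Y * Y⁻¹ = 1 := mul_nonsing_inv _ h1.isUnit
  refine ⟨Y⁻¹, fun h3 => ?_, ?_⟩
  · have h4 := congrArg det h2
    rw [det_mul, h3, mul_zero, det_one] at h4
    exact zero_ne_one h4
  · have h4 : Y⁻¹ᵀ * (Yᵀ * X * Y.map γ) * Y⁻¹.map γ = (Y * Y⁻¹)ᵀ * X * (Y * Y⁻¹).map γ := by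
      rw [transpose_mul, Matrix.map_mul]
      simp only [mul_assoc]
    rw [h4, h2, transpose_one, map_one', one_mul, mul_one]

theorem Cg.smul (h : Cg γ X X') (c : Om) : Cg γ (c • X) (c • X') := by
  obtain ⟨Y, h1, rfl⟩ := h
  exact ⟨Y, h1, by rw [Matrix.mul_smul, Matrix.smul_mul]⟩

theorem Cg.of_smul {c : Om} (hc : c ≠ 0) (h : Cg γ (c • X) (c • X')) : Cg γ X X' := by
  have h1 := h.smul c⁻¹
  rwa [inv_smul_smul₀ hc, inv_smul_smul₀ hc] at h1

theorem cg_self {Y : Matrix n n Om} (hY : Y.det ≠ 0) (X : Matrix n n Om) :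
    Cg γ X (Yᵀ * X * Y.map γ) := ⟨Y, hY, rfl⟩

/-- Transport of congruences along an automorphism. -/
theorem Cg.map (h : Cg γ X X') (τ : Gq) : Cg (τ * γ * τ⁻¹) (X.map τ) (X'.map τ) := by
  obtain ⟨Y, h1, rfl⟩ := h
  refine ⟨Y.map τ, Lanx.det_map_ne τ h1, ?_⟩
  have h2 : (Y.map τ).map (τ * γ * τ⁻¹ : Gq) = (Y.map γ).map τ := by
    ext i j
    change (τ * γ * τ⁻¹ * τ) (Y i j) = (τ * γ) (Y i j)
    rw [inv_mul_cancel_right]
  rw [h2, Matrix.map_mul, Matrix.map_mul, transpose_map]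

theorem pos_iff (h : Cj ι γ) {y : Om} (hy : y ≠ 0) (x : Om) :
    0 < (ι (y * γ y * x)).re ↔ 0 < (ι x).re := by
  have h1 := h.norm_pos hy
  have h2 : (ι (y * γ y)).im = 0 := by
    rw [map_mul, h, Complex.mul_conj, Complex.ofReal_im]
  rw [map_mul, Complex.mul_re, h2, zero_mul, sub_zero]
  exact mul_pos_iff_of_pos_left h1

theorem Cg.det_pos (hj : Cj ι γ) (h : Cg γ X X') : 0 < (ι X'.det).re ↔ 0 < (ι X.det).re := by
  obtain ⟨Y, h1, rfl⟩ := h
  rw [← pos_iff hj h1 X.det, det_mul, det_mul, det_transpose, det_map, mul_right_comm]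

theorem gam_gam (hj : Cj ι γ) (x : Om) : γ (γ x) = x := by
  rw [← AlgEquiv.mul_apply, hj.sq, AlgEquiv.one_apply]

theorem exists_skew (hj : Cj ι γ) : ∃ δ : Om, δ ≠ 0 ∧ γ δ = -δ := by
  obtain ⟨δ, hδ⟩ := IsAlgClosed.exists_pow_nat_eq (-1 : Om) two_pos
  have h0 : δ ≠ 0 := by
    rintro rfl
    simp at hδ
  refine ⟨δ, h0, (eq_or_neg (by rw [hδ, map_neg, map_one])).resolve_left fun h => ?_⟩
  have h1 := hj.real.1 h
  have h2 := congrArg (fun x => (ι x).re) hδ
  simp only [map_neg, map_one, pow_two, map_mul, Complex.mul_re, h1, mul_zero, sub_zero,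
    Complex.neg_re, Complex.one_re] at h2
  nlinarith [mul_self_nonneg (ι δ).re]

/-- Diagonalization. -/
theorem diag1 (hj : Cj ι γ) (hH : X.map γ = Xᵀ) (h0 : X.det ≠ 0) :
    ∃ c : n → Om, (∀ i, c i ≠ 0) ∧ (∀ i, γ (c i) = c i) ∧ Cg γ X (diagonal c) := by
  obtain ⟨δ, hδ0, hδ⟩ := exists_skew hj
  let _ : StarRing Om :=
    { star := γ
      star_involutive := gam_gam hj
      star_mul := fun x y => (map_mul γ x y).trans (mul_comm _ _)
      star_add := map_add γ }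
  obtain ⟨V, c, h1, h2, h3⟩ := exists_diag (D := Om) (H := X)
    ⟨two_ne_zero, δ, hδ0, hδ, fun x => mul_comm _ _⟩
    (by
      ext i j
      exact congrFun (congrFun hH j) i)
    ((isUnit_iff_isUnit_det _).2 h0.isUnit)
  refine ⟨c, h2, h3, cg_of (Y := Vᵀ) h1 ?_⟩
  rw [det_diagonal]
  exact Finset.prod_ne_zero_iff.2 fun i _ => h2 i

theorem cg_perm (π : Equiv.Perm n) {c : n → Om} (hc : ∀ i, c i ≠ 0) :
    Cg γ (diagonal c) (diagonal (c ∘ π)) := by
  refine cg_of (Y := (1 : Matrix n n Om).submatrix (Equiv.refl n) π) ?_ ?_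
  · rw [transpose_submatrix, transpose_one, ← submatrix_map, map_one', one_submatrix_mul,
      mul_submatrix_one, submatrix_submatrix]
    exact submatrix_diagonal_equiv c π
  · rw [det_diagonal]
    exact Finset.prod_ne_zero_iff.2 fun i _ => hc _

theorem re_ne (hj : Cj ι γ) {x : Om} (h0 : x ≠ 0) (hx : γ x = x) : (ι x).re ≠ 0 := fun h =>
  (map_ne_zero ι).2 h0 (Complex.ext h (hj.real.1 hx))

theorem re_mul (hj : Cj ι γ) {x : Om} (hx : γ x = x) (y : Om) :
    (ι (x * y)).re = (ι x).re * (ι y).re := by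
  rw [map_mul, Complex.mul_re, hj.real.1 hx, zero_mul, sub_zero]

theorem cg_sgn (hj : Cj ι γ) {c d : n → Om} (hc0 : ∀ i, c i ≠ 0) (hc : ∀ i, γ (c i) = c i)
    (hd0 : ∀ i, d i ≠ 0) (hd : ∀ i, γ (d i) = d i)
    (h : ∀ i, (ι (c i)).re < 0 ↔ (ι (d i)).re < 0) : Cg γ (diagonal c) (diagonal d) := by
  have h1 : ∀ i, ∃ z, z ≠ 0 ∧ γ z = z ∧ d i / c i = z ^ 2 := fun i => by
    refine hj.pos (by rw [map_div₀, hc, hd]) ?_
    have h2 := re_mul hj (hc i) (d i / c i)
    rw [mul_div_cancel₀ _ (hc0 i)] at h2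
    have h3 := re_ne hj (hc0 i) (hc i)
    have h4 := re_ne hj (hd0 i) (hd i)
    rcases h3.lt_or_gt with h5 | h5
    · have h6 := (h i).1 h5
      rw [h2] at h6
      exact pos_of_mul_neg_right h6 h5.le
    · have h6 : 0 < (ι (d i)).re := lt_of_le_of_ne (not_lt.1 fun h7 => lt_asymm h5 ((h i).2 h7))
        h4.symm
      rw [h2] at h6
      exact (mul_pos_iff_of_pos_left h5).1 h6
  choose z h2 h3 h4 using h1
  refine cg_of (Y := diagonal z) ?_ ?_
  · rw [diagonal_transpose, diagonal_map (map_zero γ), diagonal_mul_diagonal,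
      diagonal_mul_diagonal]
    congr 1
    funext i
    have h5 := h4 i
    rw [div_eq_iff (hc0 i)] at h5
    rw [h3, h5]
    ring
  · rw [det_diagonal]
    exact Finset.prod_ne_zero_iff.2 fun i _ => hd0 _

/-- The law of inertia, easy direction. -/
theorem diag2 (hj : Cj ι γ) {c d : n → Om} (hc0 : ∀ i, c i ≠ 0) (hc : ∀ i, γ (c i) = c i)
    (hd0 : ∀ i, d i ≠ 0) (hd : ∀ i, γ (d i) = d i)
    (h : Nat.card {i // (ι (d i)).re < 0} = Nat.card {i // (ι (c i)).re < 0}) :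
    Cg γ (diagonal c) (diagonal d) := by
  classical
  obtain ⟨e⟩ := Finite.card_eq.1 h
  refine (cg_perm e.extendSubtype hc0).trans (cg_sgn hj (fun i => hc0 _) (fun i => hc _) hd0 hd
    fun i => ⟨fun h1 => ?_, fun h1 => e.extendSubtype_mem i h1⟩)
  by_contra h2
  exact e.extendSubtype_not_mem i h2 h1

theorem even_neg {r : n → ℝ} (h : 0 < ∏ i, r i) : Even (Nat.card {i // r i < 0}) := by
  classical
  have h1 : ∀ s : Finset n, (∀ i ∈ s, r i ≠ 0) →
      (0 < ∏ i ∈ s, r i ↔ Even (s.filter fun i => r i < 0).card) := by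
    intro s
    induction s using Finset.induction_on with
    | empty => simp
    | insert a s ha ih =>
      intro h2
      have h3 := ih fun i hi => h2 i (Finset.mem_insert_of_mem hi)
      have h4 : ∏ i ∈ s, r i ≠ 0 :=
        Finset.prod_ne_zero_iff.2 fun i hi => h2 i (Finset.mem_insert_of_mem hi)
      rw [Finset.prod_insert ha, Finset.filter_insert]
      rcases (h2 a (Finset.mem_insert_self a s)).lt_or_gt with h5 | h5
      · rw [if_pos h5, Finset.card_insert_of_notMem fun h6 => ha (Finset.mem_filter.1 h6).1,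
          Nat.even_add_one, ← h3, not_lt]
        exact ⟨fun h6 => (neg_of_mul_pos_right h6 h5.le).le,
          fun h6 => mul_pos_of_neg_of_neg h5 (lt_of_le_of_ne h6 h4)⟩
      · rw [if_neg (lt_asymm h5), ← h3]
        exact mul_pos_iff_of_pos_left h5
  rw [Nat.card_eq_fintype_card, Fintype.card_subtype]
  exact (h1 _ fun i hi => Finset.prod_ne_zero_iff.1 h.ne' i hi).1 h

omit [DecidableEq n] in
theorem re_prod (hj : Cj ι γ) {c : n → Om} (hc : ∀ i, γ (c i) = c i) :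
    (ι (∏ i, c i)).re = ∏ i, (ι (c i)).re := by
  have h1 : ∀ i, ι (c i) = ((ι (c i)).re : ℂ) := fun i =>
    Complex.ext rfl ((hj.real.1 (hc i)).trans (Complex.ofReal_im _).symm)
  rw [map_prod, Finset.prod_congr rfl fun i _ => h1 i, ← Complex.ofReal_prod, Complex.ofReal_re]

end Vale.Agent.P011Z.Cl.O2cx

end
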